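import Vale.Agent.Lib.PTM.Defs
import Vale.Agent.Lib.MathlibUsed

/-!
Frequencies of coin strings; deterministic parts of a run.
-/

namespace Vale.Agent.Lib.PTM

open Turing

open Classical in
theorem card_split (m : ℕ) (P : List Bool → Prop) :
    (Finset.univ.filter fun ρ : Fin (m + 1) → Bool => P (List.ofFn ρ)).card =
      (Finset.univ.filter fun ρ : Fin m → Bool => P (false :: List.ofFn ρ)).card +
        (Finset.univ.filter fun ρ : Fin m → Bool => P (true :: List.ofFn ρ)).card := by
  have e : (Finset.univ.filter fun ρ : Fin (m + 1) → Bool => P (List.ofFn ρ)) =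
      ((Finset.univ.filter fun ρ : Fin m → Bool => P (false :: List.ofFn ρ)).map
        ⟨Fin.cons false, Fin.cons_right_injective _⟩) ∪
      ((Finset.univ.filter fun ρ : Fin m → Bool => P (true :: List.ofFn ρ)).map
        ⟨Fin.cons true, Fin.cons_right_injective _⟩) := by
    ext ρ
    simp only [Finset.mem_filter, Finset.mem_univ, true_and, Finset.mem_union, Finset.mem_map,
      Function.Embedding.coeFn_mk]
    constructor
    · intro h
      rw [List.ofFn_succ] at h
      rcases hb : ρ 0 with _ | _
      · left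
        refine ⟨fun i => ρ i.succ, by rwa [hb] at h, ?_⟩
        rw [← hb]
        exact Fin.cons_self_tail ρ
      · right
        refine ⟨fun i => ρ i.succ, by rwa [hb] at h, ?_⟩
        rw [← hb]
        exact Fin.cons_self_tail ρ
    · rintro (⟨ρ', h, rfl⟩ | ⟨ρ', h, rfl⟩)
      · rw [List.ofFn_succ]; exact h
      · rw [List.ofFn_succ]; exact h
  rw [e, Finset.card_union_of_disjoint, Finset.card_map, Finset.card_map]
  rw [Finset.disjoint_left]
  intro ρ h1 h2
  rw [Finset.mem_map] at h1 h2
  obtain ⟨ρ1, -, h1⟩ := h1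
  obtain ⟨ρ2, -, h2⟩ := h2
  have h3 := congrFun h1 0
  have h4 := congrFun h2 0
  simp only [Function.Embedding.coeFn_mk, Fin.cons_zero] at h3 h4
  rw [← h3] at h4
  exact Bool.noConfusion h4

open Classical in
/-- The frequency of the words of length `m` with the property `P`. -/
noncomputable def frq (m : ℕ) (P : List Bool → Prop) : ℝ :=
  ((Finset.univ.filter fun ρ : Fin m → Bool => P (List.ofFn ρ)).card : ℝ) / 2 ^ m

open Classical in
/-- The indicator of a proposition. -/
noncomputable def ind (p : Prop) : ℝ := if p then 1 else 0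

theorem frq_succ (m : ℕ) (P : List Bool → Prop) :
    frq (m + 1) P = (frq m (fun ρ => P (false :: ρ)) + frq m fun ρ => P (true :: ρ)) / 2 := by
  unfold frq
  rw [card_split m P, Nat.cast_add, pow_succ]
  ring

theorem frq_const (m : ℕ) (p : Prop) : frq m (fun _ => p) = ind p := by
  unfold frq ind
  by_cases hp : p
  · simp [hp]
  · simp [hp]

theorem frq_eq (m : ℕ) (P : List Bool → Prop) :
    (Nat.card {ρ : Fin m → Bool // P (List.ofFn ρ)} : ℝ) = frq m P * 2 ^ m := by
  classical
  unfold frq
  rw [div_mul_cancel₀ _ (by positivity)]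
  exact congrArg _ (Nat.subtype_card _ fun ρ => by simp)

theorem all_of_frq {m : ℕ} {P : List Bool → Prop} (h : frq m P = 1) (ρ : Fin m → Bool) :
    P (List.ofFn ρ) := by
  classical
  unfold frq at h
  rw [div_eq_one_iff_eq (by positivity)] at h
  have h1 : (Finset.univ.filter fun ρ : Fin m → Bool => P (List.ofFn ρ)).card =
      (Finset.univ : Finset (Fin m → Bool)).card := by
    rw [Finset.card_univ, Fintype.card_fun, Fintype.card_bool, Fintype.card_fin]
    exact_mod_cast h
  exact Finset.card_filter_eq_iff.1 h1 ρ (Finset.mem_univ _)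

open Classical in
theorem frq_congr {m : ℕ} {P Q : List Bool → Prop} (h : ∀ ρ, ρ.length = m → (P ρ ↔ Q ρ)) :
    frq m P = frq m Q :=
  congrArg (fun R : (Fin m → Bool) → Prop => ((Finset.univ.filter R).card : ℝ) / 2 ^ m)
    (funext fun _ => propext (h _ List.length_ofFn))

theorem frq_zero (P : List Bool → Prop) : frq 0 P = ind (P []) := by
  rw [← frq_const 0]
  exact frq_congr fun ρ h => by rw [List.length_eq_zero_iff.1 h]

theorem frq_mono {m : ℕ} {P Q : List Bool → Prop} (h : ∀ ρ, ρ.length = m → P ρ → Q ρ) :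
    frq m P ≤ frq m Q := by
  classical
  unfold frq
  exact div_le_div_of_nonneg_right (Nat.cast_le.2 (Finset.card_le_card
    (Finset.monotone_filter_right _ fun ρ _ => h _ List.length_ofFn))) (by positivity)

namespace Machine

variable {M : Machine}

/-- The configuration reached from `c` after one step for each coin. -/
def go (M : Machine) (c : M.Cfg) (ρ : List Bool) : M.Cfg := ρ.foldl M.step c

theorem run_eq (x ρ : List Bool) : M.run x ρ = M.go (M.first x) ρ := rfl

theorem go_cons (c : M.Cfg) (b : Bool) (ρ : List Bool) :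
    M.go c (b :: ρ) = M.go (M.step c b) ρ := rfl

theorem step_none {c : M.Cfg} (h : c.l = none) (b : Bool) : M.step c b = c := by
  unfold step
  rw [h]

theorem go_none {c : M.Cfg} (h : c.l = none) (ρ : List Bool) : M.go c ρ = c := by
  induction ρ with
  | nil => rfl
  | cons b ρ ih => rw [go_cons, step_none h, ih]

variable (M) in
/-- The machine goes from `c` to `d` in `m` steps, for all coins. -/
def Det : ℕ → M.Cfg → M.Cfg → Prop
  | 0, c, d => c = d
  | m + 1, c, d => ∀ b, Det m (M.step c b) d

theorem Det.trans {m n : ℕ} {c d e : M.Cfg} (h₁ : M.Det m c d) (h₂ : M.Det n d e) :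
    M.Det (n + m) c e := by
  induction m generalizing c with
  | zero => exact (show c = d from h₁) ▸ h₂
  | succ m ih => exact fun b => ih (h₁ b)

theorem Det.frq {m : ℕ} {c d : M.Cfg} (h : M.Det m c d) (P : M.Cfg → Prop) (T : ℕ) :
    frq (T + m) (fun ρ => P (M.go c ρ)) = frq T fun ρ => P (M.go d ρ) := by
  induction m generalizing c with
  | zero => rw [show c = d from h, add_zero]
  | succ m ih =>
    rw [← add_assoc, frq_succ]
    simp only [go_cons]
    rw [ih (h false), ih (h true)]
    ring

variable (M) in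
/-- From `c` on, after `T` or more steps the property `P` holds with frequency `r`. -/
def Res (P : M.Cfg → Prop) (c : M.Cfg) (T : ℕ) (r : ℝ) : Prop :=
  ∀ T', T ≤ T' → frq T' (fun ρ => P (M.go c ρ)) = r

variable {P : M.Cfg → Prop} {c d : M.Cfg} {T : ℕ} {r : ℝ}

theorem Res.mono {T' : ℕ} (h : M.Res P c T r) (hT : T ≤ T') : M.Res P c T' r :=
  fun T'' h' => h T'' (hT.trans h')

theorem Res.halt (h : c.l = none) : M.Res P c 0 (ind (P c)) :=
  fun T _ => by simp only [go_none h, frq_const]

theorem Res.det {m : ℕ} (h : M.Det m c d) (hd : M.Res P d T r) : M.Res P c (T + m) r :=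
  fun T' h' => by
    obtain ⟨T'', rfl⟩ : ∃ T'', T' = T'' + m := ⟨T' - m, by omega⟩
    rw [h.frq, hd T'' (by omega)]

theorem Res.step {r' : ℝ} (h : M.Res P (M.step c false) T r)
    (h' : M.Res P (M.step c true) T r') : M.Res P c (T + 1) ((r + r') / 2) := by
  intro T' hT
  obtain ⟨T'', rfl⟩ : ∃ T'', T' = T'' + 1 := ⟨T' - 1, by omega⟩
  rw [frq_succ]
  simp only [go_cons]
  rw [h T'' (by omega), h' T'' (by omega)]

end Machine

end Vale.Agent.Lib.PTM
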