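import Mathlib.Computability.TuringMachine.Computable

/-!
Probabilistic Turing machines with finitely many binary stacks.
-/

namespace Vale.Agent.Lib.PTM

open Turing

/-- A probabilistic Turing machine. It has the stacks `0, …, k` of bits, a finite set `Λ` of
states, a finite memory `σ`, and two transition functions `δ false` and `δ true`, whose values are
instructions of the stack machines `Turing.TM2` of Mathlib. -/
structure Machine where
  k : ℕ
  Λ : Type
  σ : Type
  finΛ : Finite Λ
  finσ : Finite σ
  start : Λ
  init : σ
  δ : Bool → Λ → TM2.Stmt (fun _ : Fin (k + 1) => Bool) Λ σ

namespace Machine

/-- Configurations: the state (`none` if the machine has stopped), the memory, the stacks. -/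
abbrev Cfg (M : Machine) : Type := TM2.Cfg (fun _ : Fin (M.k + 1) => Bool) M.Λ M.σ

/-- One step, when the coin of this step shows `b`: follow the transition function `δ b`. -/
def step (M : Machine) (c : M.Cfg) (b : Bool) : M.Cfg :=
  match c.l with
  | none => c
  | some l => TM2.stepAux (M.δ b l) c.var c.stk

/-- The initial configuration: the input is on stack `0`, the other stacks are empty. -/
def first (M : Machine) (x : List Bool) : M.Cfg :=
  ⟨some M.start, M.init, fun i => if i = 0 then x else []⟩

/-- The configuration reached on input `x` after one step for each of the coins `ρ`. -/
def run (M : Machine) (x : List Bool) (ρ : List Bool) : M.Cfg :=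
  ρ.foldl M.step (M.first x)

end Machine

/-- A pair of words as one word: every bit of the first word is preceded by `true`, then comes
`false`, then the second word. -/
def pair : List Bool → List Bool → List Bool
  | [], y => false :: y
  | b :: x, y => true :: b :: pair x y

end Vale.Agent.Lib.PTM
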