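import Vale.Agent.Lib.PTM.Freq
import Vale.Agent.Lib.PolyTime.Lists2
import Vale.Agent.Lib.PolyTime.Bitwise

/-!
Averages over coin strings, loops which consume blocks of coins, and a Chernoff bound.
-/

namespace Vale.Agent.Lib.PTM

open Vale.Agent.Lib.PolyTime Finset

/-- The average of `F` over the words of length `m`. -/
noncomputable def Ex : ℕ → (List Bool → ℝ) → ℝ
  | 0, F => F []
  | m + 1, F => (Ex m (fun ρ => F (false :: ρ)) + Ex m fun ρ => F (true :: ρ)) / 2

theorem frq_eq_Ex (m : ℕ) (P : List Bool → Prop) : frq m P = Ex m fun ρ => ind (P ρ) := by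
  induction m generalizing P with
  | zero => exact frq_zero P
  | succ m ih => rw [frq_succ, ih, ih]; rfl

theorem Ex_mono {m : ℕ} {F G : List Bool → ℝ} (h : ∀ ρ, ρ.length = m → F ρ ≤ G ρ) :
    Ex m F ≤ Ex m G := by
  induction m generalizing F G with
  | zero => exact h [] rfl
  | succ m ih =>
    have h1 := ih (F := fun ρ => F (false :: ρ)) (G := fun ρ => G (false :: ρ))
      fun ρ hρ => h _ (by simp [hρ])
    have h2 := ih (F := fun ρ => F (true :: ρ)) (G := fun ρ => G (true :: ρ))
      fun ρ hρ => h _ (by simp [hρ])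
    simp only [Ex]
    linarith

theorem Ex_congr {m : ℕ} {F G : List Bool → ℝ} (h : ∀ ρ, ρ.length = m → F ρ = G ρ) :
    Ex m F = Ex m G :=
  le_antisymm (Ex_mono fun ρ hρ => (h ρ hρ).le) (Ex_mono fun ρ hρ => (h ρ hρ).ge)

theorem Ex_const (m : ℕ) (c : ℝ) : Ex m (fun _ => c) = c := by
  induction m with
  | zero => rfl
  | succ m ih => simp only [Ex, ih]; ring

theorem Ex_add (m : ℕ) (F G : List Bool → ℝ) :
    Ex m (fun ρ => F ρ + G ρ) = Ex m F + Ex m G := by
  induction m generalizing F G with
  | zero => rfl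
  | succ m ih => simp only [Ex, ih]; ring

theorem Ex_mul (m : ℕ) (c : ℝ) (F : List Bool → ℝ) :
    Ex m (fun ρ => c * F ρ) = c * Ex m F := by
  induction m generalizing F with
  | zero => rfl
  | succ m ih => simp only [Ex, ih]; ring

theorem Ex_mul' (m : ℕ) (c : ℝ) (F : List Bool → ℝ) :
    Ex m (fun ρ => F ρ * c) = Ex m F * c := by
  simp only [mul_comm _ c, Ex_mul]

theorem Ex_sub (m : ℕ) (F G : List Bool → ℝ) :
    Ex m (fun ρ => F ρ - G ρ) = Ex m F - Ex m G := by
  induction m generalizing F G with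
  | zero => rfl
  | succ m ih => simp only [Ex, ih]; ring

theorem Ex_sum {ι : Type*} (m : ℕ) (s : Finset ι) (F : ι → List Bool → ℝ) :
    Ex m (fun ρ => ∑ i ∈ s, F i ρ) = ∑ i ∈ s, Ex m (F i) := by
  induction m generalizing F with
  | zero => rfl
  | succ m ih => simp only [Ex, ih, ← sum_add_distrib, sum_div]

theorem Ex_nonneg {m : ℕ} {F : List Bool → ℝ} (h : ∀ ρ, 0 ≤ F ρ) : 0 ≤ Ex m F :=
  (Ex_const m 0).ge.trans (Ex_mono fun ρ _ => h ρ)

theorem Ex_le {m : ℕ} {F : List Bool → ℝ} {c : ℝ} (h : ∀ ρ, F ρ ≤ c) : Ex m F ≤ c :=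
  (Ex_mono fun ρ _ => h ρ).trans (Ex_const m c).le

theorem le_Ex {m : ℕ} {F : List Bool → ℝ} {c : ℝ} (h : ∀ ρ, c ≤ F ρ) : c ≤ Ex m F :=
  (Ex_const m c).ge.trans (Ex_mono fun ρ _ => h ρ)

theorem Ex_append (a b : ℕ) (F : List Bool → ℝ) :
    Ex (a + b) F = Ex a fun x => Ex b fun y => F (x ++ y) := by
  induction a generalizing F with
  | zero => rw [zero_add]; rfl
  | succ a ih =>
    rw [show a + 1 + b = a + b + 1 by omega]
    simp only [Ex, ih, List.cons_append]

theorem Ex_split (a b : ℕ) (F : List Bool → List Bool → ℝ) :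
    Ex (a + b) (fun ρ => F (ρ.take a) (ρ.drop a)) = Ex a fun x => Ex b fun y => F x y := by
  rw [Ex_append]
  refine Ex_congr fun x hx => Ex_congr fun y _ => ?_
  rw [List.take_left' hx, List.drop_left' hx]

theorem Ex_split' {a m : ℕ} (h : a ≤ m) (F : List Bool → List Bool → ℝ) :
    Ex m (fun ρ => F (ρ.take a) (ρ.drop a)) = Ex a fun x => Ex (m - a) fun y => F x y := by
  rw [← Ex_split, Nat.add_sub_cancel' h]

theorem Ex_take {a m : ℕ} (h : a ≤ m) (F : List Bool → ℝ) :
    Ex m (fun ρ => F (ρ.take a)) = Ex a F := by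
  rw [Ex_split' h fun x _ => F x]
  simp only [Ex_const]

theorem Ex_val (k : ℕ) (F : ℕ → ℝ) :
    Ex k (fun ρ => F (val ρ)) = (∑ x ∈ range (2 ^ k), F x) / 2 ^ k := by
  induction k generalizing F with
  | zero => simp [Ex]
  | succ k ih =>
    have e : ∀ n : ℕ, ∑ x ∈ range (2 * n), F x =
        ∑ x ∈ range n, F (2 * x) + ∑ x ∈ range n, F (1 + 2 * x) := by
      intro n
      induction n with
      | zero => simp
      | succ n ih =>
        rw [show 2 * (n + 1) = 2 * n + 1 + 1 by ring, sum_range_succ, sum_range_succ, ih,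
          sum_range_succ, sum_range_succ, add_comm 1 (2 * n)]
        ring
    simp only [Ex, val_cons, Bool.toNat_false, Bool.toNat_true, zero_add]
    rw [ih fun x => F (2 * x), ih fun x => F (1 + 2 * x), pow_succ', e, pow_succ']
    field_simp

/-- Read a number of `k` bits, then go on with the remaining coins. -/
theorem Ex_read {k m : ℕ} (h : k ≤ m) (F : ℕ → List Bool → ℝ) :
    Ex m (fun ρ => F (val (ρ.take k)) (ρ.drop k)) =
      (∑ x ∈ range (2 ^ k), Ex (m - k) (F x)) / 2 ^ k := by
  rw [Ex_split' h fun x y => F (val x) y, Ex_val k fun x => Ex (m - k) (F x)]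

theorem Ex_lt {k m c : ℕ} (h : k ≤ m) (hc : c ≤ 2 ^ k) (x y : ℝ) :
    Ex m (fun ρ => if val (ρ.take k) < c then x else y) = y + (c : ℝ) / 2 ^ k * (x - y) := by
  rw [Ex_take h fun ρ => if val ρ < c then x else y, Ex_val k fun z => if z < c then x else y]
  obtain ⟨d, hd⟩ := Nat.exists_eq_add_of_le hc
  have hd' : (2 : ℝ) ^ k = c + d := by exact_mod_cast hd
  rw [hd, sum_range_add, sum_congr rfl fun z hz => if_pos (mem_range.1 hz),
    sum_congr rfl fun z _ => if_neg (by omega)]
  simp only [sum_const, card_range, nsmul_eq_mul]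
  have : (0 : ℝ) < 2 ^ k := by positivity
  field_simp
  rw [hd']
  ring

/-- A number modulo `k` is nearly uniform. -/
theorem Ex_mod {K m k : ℕ} (h : K ≤ m) (hk : 0 < k) {F : ℕ → ℝ} (hF : ∀ x, 0 ≤ F x) :
    (1 - (k : ℝ) / 2 ^ K) * ((∑ x ∈ range k, F x) / k) ≤ Ex m fun ρ => F (val (ρ.take K) % k) := by
  rw [Ex_take h fun ρ => F (val ρ % k), Ex_val K fun z => F (z % k)]
  have e : ∀ d : ℕ, ∑ x ∈ range (d * k), F (x % k) = d * ∑ x ∈ range k, F x := by
    intro d
    induction d with
    | zero => simp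
    | succ d ih =>
      rw [add_mul, one_mul, sum_range_add, ih, sum_congr rfl fun x hx =>
        show F ((d * k + x) % k) = F x by rw [Nat.mul_add_mod', Nat.mod_eq_of_lt (mem_range.1 hx)]]
      push_cast
      ring
  have h1 : ∑ x ∈ range (2 ^ K / k * k), F (x % k) ≤ ∑ x ∈ range (2 ^ K), F (x % k) :=
    sum_le_sum_of_subset_of_nonneg (range_mono (Nat.div_mul_le_self _ _)) fun _ _ _ => hF _
  rw [e] at h1
  have h2 : (2 : ℝ) ^ K ≤ k * ((2 ^ K / k : ℕ) + 1) := by
    exact_mod_cast (Nat.lt_mul_div_succ (2 ^ K) hk).le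
  have h3 : 0 ≤ ∑ x ∈ range k, F x := sum_nonneg fun _ _ => hF _
  have h4 : (0 : ℝ) < k := by exact_mod_cast hk
  have h5 : (0 : ℝ) < 2 ^ K := by positivity
  refine le_trans ?_ (div_le_div_of_nonneg_right h1 h5.le)
  rw [le_div_iff₀ h5]
  have : (1 - (k : ℝ) / 2 ^ K) * ((∑ x ∈ range k, F x) / k) * 2 ^ K =
      (2 ^ K - k) / k * ∑ x ∈ range k, F x := by field_simp
  rw [this]
  refine mul_le_mul_of_nonneg_right ?_ h3
  rw [div_le_iff₀ h4]
  linarith

/-! ### Loops -/

section

variable {γ S : Type*}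

/-- A loop over a list; each round uses the next `B` coins. -/
def runL (B : ℕ) (step : γ → S → List Bool → S) : List γ → S → List Bool → S
  | [], s, _ => s
  | x :: l, s, ρ => runL B step l (step x s (ρ.take B)) (ρ.drop B)

/-- The Markov operator of one round. -/
noncomputable def op (B : ℕ) (step : S → List Bool → S) (g : S → ℝ) (s : S) : ℝ :=
  Ex B fun ρ => g (step s ρ)

theorem Ex_runL (B : ℕ) (step : γ → S → List Bool → S) (g : S → ℝ) (l : List γ) (s : S) {m : ℕ}
    (hm : l.length * B ≤ m) : Ex m (fun ρ => g (runL B step l s ρ)) =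
      l.foldr (fun x g => op B (step x) g) g s := by
  induction l generalizing s m with
  | nil => exact Ex_const m (g s)
  | cons x l ih =>
    rw [List.length_cons, add_mul, one_mul] at hm
    simp only [runL]
    rw [Ex_split' (show B ≤ m by omega) fun y z => g (runL B step l (step x s y) z)]
    exact Ex_congr fun y _ => ih _ (by omega)

theorem runL_append (B : ℕ) (step : γ → S → List Bool → S) (l l' : List γ) (s : S)
    (ρ : List Bool) : runL B step (l ++ l') s ρ =
      runL B step l' (runL B step l s ρ) (ρ.drop (l.length * B)) := by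
  induction l generalizing s ρ with
  | nil => simp [runL]
  | cons x l ih =>
    simp only [List.cons_append, runL, ih, List.drop_drop, List.length_cons]
    rw [show B + l.length * B = (l.length + 1) * B by ring]

theorem runL_inv {B : ℕ} {step : γ → S → List Bool → S} {I : S → Prop} {l : List γ}
    (h : ∀ x ∈ l, ∀ s ρ, I s → I (step x s ρ)) {s : S} (hs : I s) (ρ : List Bool) :
    I (runL B step l s ρ) := by
  induction l generalizing s ρ with
  | nil => exact hs
  | cons x l ih =>
    exact ih (fun y hy => h y (List.mem_cons_of_mem _ hy)) (h x List.mem_cons_self _ _ hs) _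

theorem runL_map {γ' S' : Type*} {B : ℕ} {step : γ → S → List Bool → S}
    {step' : γ' → S' → List Bool → S'} {φ : γ → γ'} {ψ : S → S'} {l : List γ}
    (h : ∀ x ∈ l, ∀ s ρ, step' (φ x) (ψ s) ρ = ψ (step x s ρ)) (s : S) (ρ : List Bool) :
    runL B step' (l.map φ) (ψ s) ρ = ψ (runL B step l s ρ) := by
  induction l generalizing s ρ with
  | nil => rfl
  | cons x l ih =>
    simp only [List.map_cons, runL]
    rw [h x List.mem_cons_self, ih fun y hy => h y (List.mem_cons_of_mem _ hy)]

theorem ind_nonneg (p : Prop) : 0 ≤ ind p := by unfold ind; split_ifs <;> norm_num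

theorem ind_le_one (p : Prop) : ind p ≤ 1 := by unfold ind; split_ifs <;> norm_num

theorem ind_of {p : Prop} (h : p) : ind p = 1 := if_pos h

theorem ind_of_not {p : Prop} (h : ¬p) : ind p = 0 := if_neg h

theorem ind_mono {p q : Prop} (h : p → q) : ind p ≤ ind q := by
  by_cases hp : p
  · rw [ind_of hp, ind_of (h hp)]
  · rw [ind_of_not hp]; exact ind_nonneg q

/-- If every round keeps an invariant with probability `1 - p`, all rounds keep it with
probability `1 - (number of rounds) p`. -/
theorem runL_good {B : ℕ} {step : γ → S → List Bool → S} {I : ℕ → S → Prop} {p : ℝ} (hp : 0 ≤ p)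
    {T : ℕ} (h : ∀ x, ∀ k < T, ∀ s, I k s → 1 - p ≤ Ex B fun ρ => ind (I (k + 1) (step x s ρ)))
    (l : List γ) {k : ℕ} (hk : k + l.length ≤ T) {s : S} (hs : I k s) {m : ℕ}
    (hm : l.length * B ≤ m) :
    1 - l.length * p ≤ Ex m fun ρ => ind (I (k + l.length) (runL B step l s ρ)) := by
  induction l generalizing s m k with
  | nil => simp [runL, Ex_const, ind_of hs]
  | cons x l ih =>
    rw [List.length_cons] at hk
    rw [List.length_cons, add_mul, one_mul] at hm
    simp only [runL, List.length_cons]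
    rw [Ex_split' (show B ≤ m by omega)
      fun y z => ind (I (k + (l.length + 1)) (runL B step l (step x s y) z))]
    have h1 := h x k (by omega) s hs
    have h2 : Ex B (fun ρ => ind (I (k + 1) (step x s ρ)) - l.length * p) ≤ Ex B fun y =>
        Ex (m - B) fun z => ind (I (k + (l.length + 1)) (runL B step l (step x s y) z)) := by
      refine Ex_mono fun y _ => ?_
      by_cases hy : I (k + 1) (step x s y)
      · rw [ind_of hy, show k + (l.length + 1) = k + 1 + l.length by omega]
        exact ih (by omega) hy (by omega)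
      · rw [ind_of_not hy]
        exact le_trans (by have : 0 ≤ (l.length : ℝ) * p := by positivity
                           linarith) (Ex_nonneg fun _ => ind_nonneg _)
    rw [Ex_sub, Ex_const] at h2
    push_cast
    linarith

theorem runL_eq_foldl (B : ℕ) (step : γ → S → List Bool → S) (l : List γ) (s : S)
    (ρ : List Bool) : (runL B step l s ρ, ρ.drop (l.length * B)) =
      l.foldl (fun p x => (step x p.1 (p.2.take B), p.2.drop B)) (s, ρ) := by
  induction l generalizing s ρ with
  | nil => simp [runL]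
  | cons x l ih =>
    rw [List.foldl_cons, ← ih]
    simp only [runL, List.drop_drop, List.length_cons]
    rw [show B + l.length * B = (l.length + 1) * B by ring]

end

theorem PT.runL {α γ S : Type*} [Enc α] [Enc γ] [Enc S] {B : α → ℕ}
    {step : α → γ → S → List Bool → S} {l : α → List γ} {s : α → S} {ρ : α → List Bool}
    (hB : PT ∅ B) (hstep : PT ∅ fun p : α × γ × S × List Bool => step p.1 p.2.1 p.2.2.1 p.2.2.2)
    (hl : PT ∅ l) (hs : PT ∅ s) (hρ : PT ∅ ρ) {b : α → ℕ} (hb : PBd b)
    (h : ∀ a i, esize (runL (B a) (step a) ((l a).take i) (s a) (ρ a)) ≤ b a) :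
    PT ∅ fun a => runL (B a) (step a) (l a) (s a) (ρ a) := by
  have h1 : PT ∅ fun a => (l a).foldl
      (fun p x => (step a x p.1 (p.2.take (B a)), p.2.drop (B a))) (s a, ρ a) := by
    refine PT.foldl (f := fun a (p : S × List Bool) x =>
      (step a x p.1 (p.2.take (B a)), p.2.drop (B a))) hl (hs.pair hρ) ?_
      ((((PBd.const 2).mul hb).add hρ.pbd).add (PBd.const 1)) fun a i => ?_
    · exact (hstep.comp (PT.fst'.pair (PT.snd'.snd.pair (PT.snd'.fst.fst.pair
        (PT.take PT.snd'.fst.snd (hB.comp PT.fst')))))).pair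
        (PT.drop PT.snd'.fst.snd (hB.comp PT.fst'))
    · rw [← runL_eq_foldl, esize_pair]
      have := h a i
      have := esize_drop_le (((l a).take i).length * B a) (ρ a)
      omega
  exact h1.fst.congr fun a => by rw [← runL_eq_foldl]

end Vale.Agent.Lib.PTM
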