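import Vale.Agent.Lib.PTM.Freq
import Vale.Agent.Lib.PolyTime.TM2
import Vale.Agent.Lib.PolyTime.Lists2
import Vale.Agent.Lib.PolyTime.Bitwise

/-!
Compilation of a computation which first collects coins and then applies a polynomial time
function into a probabilistic Turing machine.
-/

namespace Vale.Agent.Lib.PTM

open Turing Function Vale.Agent.Lib.PolyTime Vale.Agent.Lib.PolyTime.ToTM2

/-- Programs without questions. -/
def NoQ : Prog → Prop
  | .skip => True
  | .push _ _ => True
  | .pop _ => True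
  | .query _ _ => False
  | .seq p q => NoQ p ∧ NoQ q
  | .ite _ p q r => NoQ p ∧ NoQ q ∧ NoQ r
  | .loop _ p => NoQ p

/-- Replace the questions by the answer of the empty oracle. -/
def strip : Prog → Prog
  | .skip => .skip
  | .push i b => .push i b
  | .pop i => .pop i
  | .query _ j => .push j false
  | .seq p q => .seq (strip p) (strip q)
  | .ite i p q r => .ite i (strip p) (strip q) (strip r)
  | .loop i p => .loop i (strip p)

theorem noQ_strip (p : Prog) : NoQ (strip p) := by
  induction p with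
  | seq p q hp hq => exact ⟨hp, hq⟩
  | ite i p q r hp hq hr => exact ⟨hp, hq, hr⟩
  | loop i p hp => exact hp
  | _ => trivial

theorem eval_strip {p : Prog} {s s' : ℕ → Word} {t : ℕ} (h : Eval ∅ p s t s') :
    Eval ∅ (strip p) s t s' := by
  induction h with
  | skip s => exact Eval.skip s
  | push s i b => exact Eval.push s i b
  | pop s i => exact Eval.pop s i
  | query_yes s i j hi => exact absurd hi (by simp)
  | query_no s i j hi => exact Eval.push s j false
  | seq _ _ h₁ h₂ => exact Eval.seq h₁ h₂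
  | ite_nil h _ h₁ => exact Eval.ite_nil h h₁
  | ite_false h _ h₁ => exact Eval.ite_false h h₁
  | ite_true h _ h₁ => exact Eval.ite_true h h₁
  | loop_stop h => exact Eval.loop_stop h
  | loop_step h _ _ h₁ h₂ => exact Eval.loop_step h h₁ h₂

section Mach

variable (N : ℕ) (R : Set (List Prog)) (h0 : [] ∈ R) (hfin : R.Finite) (st : List Prog)

/-- The two transition functions. -/
noncomputable def dl (b : Bool) :
    List Prog → TM2.Stmt (fun _ : Fin (N + 1) => Bool) R (Option Bool)
  | .query _ j :: ks => .push (stk N j) (fun _ => b) (.goto fun _ => lab R h0 ks)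
  | l => stmt N R h0 l

/-- The machine. -/
noncomputable def mach : Machine where
  k := N
  Λ := R
  σ := Option Bool
  finΛ := hfin.to_subtype
  finσ := inferInstance
  start := lab R h0 st
  init := none
  δ b l := dl N R h0 b l.1

/-- Configurations of the machine. -/
noncomputable def cfg (l : List Prog) (v : Option Bool) (s : ℕ → Word) :
    (mach N R h0 hfin st).Cfg := ⟨some (lab R h0 l), v, restr N s⟩

variable {N R h0 hfin st}

theorem step_cfg {l : List Prog} (hl : l ∈ R) (v : Option Bool)
    (s : ℕ → Word) (b : Bool) : (mach N R h0 hfin st).step (cfg N R h0 hfin st l v s) b =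
      TM2.stepAux (dl N R h0 b l) v (restr N s) := by
  change TM2.stepAux (dl N R h0 b (lab R h0 l).1) v (restr N s) = _
  rw [lab_of_mem hl]

theorem det_one {l : List Prog} (hl : l ∈ R) (h : ∀ i j ks, l ≠ .query i j :: ks)
    {v : Option Bool} {s : ℕ → Word} {d : (mach N R h0 hfin st).Cfg}
    (hd : TM2.stepAux (stmt N R h0 l) v (restr N s) = d) :
    (mach N R h0 hfin st).Det 1 (cfg N R h0 hfin st l v s) d := by
  intro b
  change _ = d
  rw [step_cfg hl, ← hd]
  rcases l with _ | ⟨p, ks⟩
  · rfl
  · cases p with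
    | query i j => exact absurd rfl (h i j ks)
    | _ => rfl

theorem sim' {p : Prog} {s s' : ℕ → Word} {t : ℕ} (h : Eval ∅ p s t s') (hn : NoQ p)
    (hb : bounded (N + 1) p) (ks : List Prog) (hR : reach p ks ⊆ R) (hks : ks ∈ R)
    (v : Option Bool) : ∃ n v', n + 1 ≤ 2 * t ∧ (mach N R h0 hfin st).Det n
      (cfg N R h0 hfin st (p :: ks) v s) (cfg N R h0 hfin st ks v' s') := by
  induction h generalizing ks v with
  | skip s =>
    exact ⟨1, v, by norm_num, det_one (hR (self_mem_reach _ _)) (by simp) rfl⟩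
  | push s i b =>
    refine ⟨1, v, by norm_num, det_one (hR (self_mem_reach _ _)) (by simp) ?_⟩
    simp only [stmt, TM2.stepAux, cfg]
    rw [restr_update N hb, restr_stk N hb]
    rfl
  | pop s i =>
    refine ⟨1, v, by norm_num, det_one (hR (self_mem_reach _ _)) (by simp) ?_⟩
    simp only [stmt, TM2.stepAux, cfg]
    rw [restr_update N hb, restr_stk N hb]
    rfl
  | query_yes s i j hi => exact hn.elim
  | query_no s i j hi => exact hn.elim
  | @seq p q s s' s'' t t' _ _ ih₁ ih₂ =>
    have hq' : reach q ks ⊆ R := fun x hx => hR (Or.inr (Or.inr hx))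
    have hp : reach p (q :: ks) ⊆ R := fun x hx => hR (Or.inr (Or.inl hx))
    obtain ⟨n₁, v₁, hn₁, e₁⟩ := ih₁ hn.1 hb.1 (q :: ks) hp (hq' (self_mem_reach _ _)) v
    obtain ⟨n₂, v₂, hn₂, e₂⟩ := ih₂ hn.2 hb.2 ks hq' hks v₁
    have e₀ : (mach N R h0 hfin st).Det 1 (cfg N R h0 hfin st (.seq p q :: ks) v s)
        (cfg N R h0 hfin st (p :: q :: ks) v s) :=
      det_one (hR (self_mem_reach _ _)) (by simp) rfl
    exact ⟨n₂ + (n₁ + 1), v₂, by omega, (e₀.trans e₁).trans e₂⟩
  | @ite_nil p q r s s' t i hi _ ih =>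
    have hp : reach p ks ⊆ R := fun x hx => hR (Or.inr (Or.inl hx))
    obtain ⟨n₁, v₁, hn₁, e₁⟩ := ih hn.1 hb.2.1 ks hp hks none
    have e₀ : (mach N R h0 hfin st).Det 1 (cfg N R h0 hfin st (.ite i p q r :: ks) v s)
        (cfg N R h0 hfin st (p :: ks) none s) := by
      refine det_one (hR (self_mem_reach _ _)) (by simp) ?_
      simp only [stmt, TM2.stepAux, restr_stk N hb.1, hi, List.head?_nil, cfg]
      rfl
    exact ⟨n₁ + 1, v₁, by omega, e₀.trans e₁⟩
  | @ite_false p q r s s' t i hi _ ih =>
    have hp : reach q ks ⊆ R := fun x hx => hR (Or.inr (Or.inr (Or.inl hx)))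
    obtain ⟨n₁, v₁, hn₁, e₁⟩ := ih hn.2.1 hb.2.2.1 ks hp hks (some false)
    have e₀ : (mach N R h0 hfin st).Det 1 (cfg N R h0 hfin st (.ite i p q r :: ks) v s)
        (cfg N R h0 hfin st (q :: ks) (some false) s) := by
      refine det_one (hR (self_mem_reach _ _)) (by simp) ?_
      simp only [stmt, TM2.stepAux, restr_stk N hb.1, hi, cfg]
      rfl
    exact ⟨n₁ + 1, v₁, by omega, e₀.trans e₁⟩
  | @ite_true p q r s s' t i hi _ ih =>
    have hp : reach r ks ⊆ R := fun x hx => hR (Or.inr (Or.inr (Or.inr hx)))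
    obtain ⟨n₁, v₁, hn₁, e₁⟩ := ih hn.2.2 hb.2.2.2 ks hp hks (some true)
    have e₀ : (mach N R h0 hfin st).Det 1 (cfg N R h0 hfin st (.ite i p q r :: ks) v s)
        (cfg N R h0 hfin st (r :: ks) (some true) s) := by
      refine det_one (hR (self_mem_reach _ _)) (by simp) ?_
      simp only [stmt, TM2.stepAux, restr_stk N hb.1, hi, cfg]
      rfl
    exact ⟨n₁ + 1, v₁, by omega, e₀.trans e₁⟩
  | @loop_stop p s i hi =>
    refine ⟨1, none, by norm_num, det_one (hR (self_mem_reach _ _)) (by simp) ?_⟩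
    simp only [stmt, TM2.stepAux, restr_stk N hb.1, hi, List.head?_nil, cfg]
    rfl
  | @loop_step p s s' s'' t t' i hi _ _ ih₁ ih₂ =>
    have hl : Prog.loop i p :: ks ∈ R := hR (self_mem_reach _ _)
    have hp : reach p (.loop i p :: ks) ⊆ R := fun x hx => hR (Or.inr hx)
    obtain ⟨b, hbh⟩ : ∃ b, (s i).head? = some b := by
      cases hs : s i with
      | nil => exact absurd hs hi
      | cons b w => exact ⟨b, by simp⟩
    obtain ⟨n₁, v₁, hn₁, e₁⟩ := ih₁ hn hb.2 (.loop i p :: ks) hp hl (some b)
    obtain ⟨n₂, v₂, hn₂, e₂⟩ := ih₂ hn hb ks hR hks v₁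
    have e₀ : (mach N R h0 hfin st).Det 1 (cfg N R h0 hfin st (.loop i p :: ks) v s)
        (cfg N R h0 hfin st (p :: .loop i p :: ks) (some b) s) := by
      refine det_one hl (by simp) ?_
      simp only [stmt, TM2.stepAux, restr_stk N hb.1, hbh, cfg]
      rfl
    exact ⟨n₂ + (n₁ + 1), v₂, by omega, (e₀.trans e₁).trans e₂⟩

theorem res_run {p : Prog} {s s' : ℕ → Word} {t : ℕ} (h : Runs ∅ p s t s') (hn : NoQ p)
    (hb : bounded (N + 1) p) {ks : List Prog} (hR : reach p ks ⊆ R) (hks : ks ∈ R)
    {P : (mach N R h0 hfin st).Cfg → Prop} {T : ℕ} {r : ℝ}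
    (H : ∀ v, (mach N R h0 hfin st).Res P (cfg N R h0 hfin st ks v s') T r)
    (v : Option Bool) :
    (mach N R h0 hfin st).Res P (cfg N R h0 hfin st (p :: ks) v s) (T + 2 * t) r := by
  obtain ⟨t', ht, h⟩ := h
  obtain ⟨n, v', h1, h2⟩ := sim' (h0 := h0) (hfin := hfin) (st := st) h hn hb ks hR hks v
  exact (Machine.Res.det h2 (H v')).mono (by omega)

end Mach

/-- The memory with the words `w` and `u` on the stacks `0` and `2`. -/
def mem (w u : Word) : ℕ → Word := fun i => if i = 0 then w else if i = 2 then u else []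

theorem exists_block {U Q : Word → Word} (hU : FP ∅ U) (hQ : FP ∅ Q) : ∃ p c, NoQ p ∧
    ∀ w u, Runs ∅ p (mem w u) (pb c w.length + 2 * u.length) (mem (U w) (Q (U w))) := by
  obtain ⟨p, a, c, -, h1, h2⟩ := hU.elim
  obtain ⟨q, a', c', -, -, h3⟩ := hQ.elim
  obtain ⟨d, hd⟩ := PB.exists_pb (T := fun n => 1 + (pb c n + ((2 * n + 1) + ((8 * pb c n + 2) +
    pb c' (pb c n))))) ((PB.const 1).add ((PB.pb c).add ((((PB.const 2).mul PB.id).add
      (PB.const 1)).add ((((PB.const 8).mul (PB.pb c)).add (PB.const 2)).add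
        ((PB.pb c').comp (PB.pb c))))))
  refine ⟨strip (.seq (.clear 2) (.seq (p.rename (rel 0 3 3)) (.seq (.clear 0)
    (.seq (.mvo 3 0 4) (q.rename (rel 0 2 3)))))), d, noQ_strip _, fun w u => ?_⟩
  have e1 : update (mem w u) 2 [] = mem w [] := by
    funext i
    by_cases hi : i = 2
    · simp [hi, mem]
    · simp [hi, mem]
  have r1 := Runs.clear (A := ∅) (s := mem w u) 2
  rw [e1] at r1
  have r2 := h2 0 3 3 (by omega) (by omega) (by omega) (mem w []) (by simp [mem])
    fun i h _ => by simp [mem]; omega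
  have r3 := Runs.clear (A := ∅) (s := update (mem w []) 3 (U (mem w [] 0))) 0
  have r4 := Runs.mvo (A := ∅) (s := update (update (mem w []) 3 (U (mem w [] 0))) 0 [])
    (i := 3) (j := 0) (k := 4) (by omega) (by omega) (by omega) (by simp [mem])
  have e2 : update (update (update (update (mem w []) 3 (U (mem w [] 0))) 0 []) 3 []) 0
      (update (update (mem w []) 3 (U (mem w [] 0))) 0 [] 3 ++
        update (update (mem w []) 3 (U (mem w [] 0))) 0 [] 0) = mem (U w) [] := by
    funext i
    by_cases hi : i = 0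
    · simp [hi, mem]
    · by_cases hi' : i = 3
      · simp [hi', mem]
      · simp [hi, hi', mem]
  rw [e2] at r4
  have r5 := h3 0 2 3 (by omega) (by omega) (by omega) (mem (U w) []) (by simp [mem])
    fun i h _ => by simp [mem]; omega
  have e3 : update (mem (U w) []) 2 (Q (mem (U w) [] 0)) = mem (U w) (Q (U w)) := by
    funext i
    by_cases hi : i = 2
    · simp [hi, mem]
    · simp [hi, mem]
  rw [e3] at r5
  obtain ⟨t, ht, he⟩ := r1.seq (r2.seq (r3.seq (r4.seq r5)))
  refine ⟨t, ht.trans ?_, eval_strip he⟩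
  have h4 := hd w.length
  have h5 := h1 w
  have h6 := pb_mono c' h5
  simp [mem] at h4 ⊢
  omega

/-- The rounds of a computation: it stops after at most `K` rounds, all states have length at
most `B`, and the output has the property `p` with probability `r`. -/
inductive Val (Q U Out : Word → Word) (p : Word → Prop) (B : ℕ) : ℕ → Word → ℝ → Prop
  | stop {K w} : Q w = [] → w.length ≤ B → Val Q U Out p B K w (ind (p (Out w)))
  | step {K w r r'} : Q w ≠ [] → w.length ≤ B →
      Val Q U Out p B K (U (false :: w)) r → Val Q U Out p B K (U (true :: w)) r' →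
      Val Q U Out p B (K + 1) w ((r + r') / 2)

theorem mem_push (w u : Word) (b : Bool) :
    update (mem w u) 0 (b :: mem w u 0) = mem (b :: w) u := by
  funext i
  by_cases hi : i = 0
  · simp [hi, mem]
  · simp [hi, mem]

theorem exists_machine_val {I Q U Out : Word → Word} (hI : FP ∅ I) (hQ : FP ∅ Q) (hU : FP ∅ U)
    (hO : FP ∅ Out) : ∃ (M : Machine) (c : ℕ), ∀ (p : Word → Prop)
      (P : M.Cfg → Prop), (∀ d : M.Cfg, d.l = none → (P d ↔ p (d.stk 0))) →
      ∀ (x : Word) (B K : ℕ) (r : ℝ), x.length ≤ B → Val Q U Out p B K (I x) r →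
        M.Res P (M.first x) ((K + 2) * pb c B) r := by
  obtain ⟨p₁, c₁, n₁, r₁⟩ := exists_block hI hQ
  obtain ⟨p₂, c₂, n₂, r₂⟩ := exists_block hU hQ
  obtain ⟨p₃, c₃, n₃, r₃⟩ := exists_block hO (FP.nil (A := ∅))
  obtain ⟨-, -, c₄, -, r₄, -⟩ := hQ.elim
  obtain ⟨c, hc⟩ := PB.exists_pb (T := fun n => 2 * (pb c₁ n + pb c₂ (n + 2) + pb c₃ n +
    2 * pb c₄ n) + 8) (((PB.const 2).mul ((((PB.pb c₁).add ((PB.pb c₂).comp
      (PB.id.add (PB.const 2)))).add (PB.pb c₃)).add ((PB.const 2).mul (PB.pb c₄)))).add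
        (PB.const 8))
  obtain ⟨N₀, hN⟩ := exists_bounded (.seq p₁ (.seq p₂ p₃))
  let N := N₀ + 2
  have b₁ : bounded (N + 1) p₁ := bounded_mono (by omega) hN.1
  have b₂ : bounded (N + 1) p₂ := bounded_mono (by omega) hN.2.1
  have b₃ : bounded (N + 1) p₃ := bounded_mono (by omega) hN.2.2
  let bd : Prog := .seq (.query 0 0) p₂
  let L : List Prog := [.loop 2 bd, p₃]
  let R : Set (List Prog) := {[], L, bd :: L, .query 0 0 :: p₂ :: L} ∪
    (reach p₁ L ∪ (reach p₂ L ∪ reach p₃ []))
  have h0 : [] ∈ R := Or.inl (by simp)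
  have hfin : R.Finite := (Set.toFinite _).union ((reach_finite _ _).union
    ((reach_finite _ _).union (reach_finite _ _)))
  have hL : L ∈ R := Or.inl (by simp)
  refine ⟨mach N R h0 hfin (p₁ :: L), c, fun p P hP x B K r hx hV => ?_⟩
  have hB := hc B
  have key : ∀ {K w r}, Val Q U Out p B K w r → ∀ v, (mach N R h0 hfin (p₁ :: L)).Res P
      (cfg N R h0 hfin (p₁ :: L) L v (mem w (Q w))) ((K + 1) * pb c B) r := by
    intro K w r hV
    induction hV with
    | @stop K w h1 h2 =>
      intro v
      have e1 : (mach N R h0 hfin (p₁ :: L)).Det 1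
          (cfg N R h0 hfin (p₁ :: L) L v (mem w (Q w)))
          (cfg N R h0 hfin (p₁ :: L) [p₃] none (mem w (Q w))) := by
        refine det_one hL (by simp [L]) ?_
        have h3 : restr N (mem w (Q w)) (stk N 2) = [] := by
          rw [restr_stk N (by omega)]
          exact h1
        simp only [L, stmt, TM2.stepAux, h3, List.head?_nil, cfg]
        rfl
      have e2 := res_run (P := P) (T := 0 + 1) (r := ind (p (Out w)))
        (r₃ w (Q w)) n₃ b₃ (fun _ h => Or.inr (Or.inr (Or.inr h))) h0 (fun v => by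
          have e3 : (mach N R h0 hfin (p₁ :: L)).Det 1
              (cfg N R h0 hfin (p₁ :: L) [] v (mem (Out w) []))
              ⟨none, none, restr N (mem (Out w) [])⟩ := det_one h0 (by simp) rfl
          have e4 : P ⟨none, none, restr N (mem (Out w) [])⟩ = p (Out w) := propext (hP _ rfl)
          exact Machine.Res.det e3 (e4 ▸ Machine.Res.halt rfl)) none
      refine (Machine.Res.det e1 e2).mono ?_
      have h4 := pb_mono c₃ h2
      rw [h1, add_mul]
      simp only [List.length_nil]
      omega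
    | @step K w r r' h1 h2 _ _ ih ih' =>
      intro v
      obtain ⟨b, hb⟩ : ∃ b, (Q w).head? = some b := by
        cases hs : Q w with
        | nil => exact absurd hs h1
        | cons b w => exact ⟨b, by simp⟩
      have h3 : restr N (mem w (Q w)) (stk N 2) = Q w := restr_stk N (by omega) _
      have e1 : (mach N R h0 hfin (p₁ :: L)).Det 1
          (cfg N R h0 hfin (p₁ :: L) L v (mem w (Q w)))
          (cfg N R h0 hfin (p₁ :: L) (bd :: L) (some b) (mem w (Q w))) := by
        refine det_one hL (by simp [L]) ?_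
        simp only [L, stmt, TM2.stepAux, h3, hb, cfg]
        rfl
      have e5 : (mach N R h0 hfin (p₁ :: L)).Det 1
          (cfg N R h0 hfin (p₁ :: L) (bd :: L) (some b) (mem w (Q w)))
          (cfg N R h0 hfin (p₁ :: L) (.query 0 0 :: p₂ :: L) (some b) (mem w (Q w))) :=
        det_one (Or.inl (by simp)) (by simp [bd]) rfl
      have e6 : ∀ y, (mach N R h0 hfin (p₁ :: L)).step
          (cfg N R h0 hfin (p₁ :: L) (.query 0 0 :: p₂ :: L) (some b) (mem w (Q w))) y =
          cfg N R h0 hfin (p₁ :: L) (p₂ :: L) (some b) (mem (y :: w) (Q w)) := by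
        intro y
        rw [step_cfg (Or.inl (by simp))]
        simp only [dl, TM2.stepAux, cfg]
        rw [← mem_push w, restr_update N (by omega), restr_stk N (by omega)]
        rfl
      have e7 := fun y r (H : ∀ v, (mach N R h0 hfin (p₁ :: L)).Res P
          (cfg N R h0 hfin (p₁ :: L) L v (mem (U (y :: w)) (Q (U (y :: w)))))
            ((K + 1) * pb c B) r) =>
        res_run (r₂ (y :: w) (Q w)) n₂ b₂ (fun _ h => Or.inr (Or.inr (Or.inl h))) hL H
          (some b)
      have e8 := Machine.Res.step (e6 false ▸ e7 false r ih) (e6 true ▸ e7 true r' ih')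
      refine (Machine.Res.det e1 (Machine.Res.det e5 e8)).mono ?_
      have h4 : pb c₂ (w.length + 1) ≤ pb c₂ (B + 2) := pb_mono c₂ (by omega)
      have h5 := (r₄ w).trans (pb_mono c₄ h2)
      rw [add_mul (K + 1)]
      simp only [List.length_cons]
      omega
  have e1 : (mach N R h0 hfin (p₁ :: L)).first x =
      cfg N R h0 hfin (p₁ :: L) (p₁ :: L) none (mem x []) := by
    refine congrArg (fun s => (⟨some (lab R h0 (p₁ :: L)), none, s⟩ :
      (mach N R h0 hfin (p₁ :: L)).Cfg)) (funext fun i => ?_)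
    by_cases hi : i = 0
    · subst hi
      rfl
    · have h1 : (i : ℕ) ≠ 0 := fun e => hi (Fin.ext e)
      simp [restr, mem, hi, h1]
  rw [e1]
  refine (res_run (r₁ x []) n₁ b₁ (fun _ h => Or.inr (Or.inl h)) hL (key hV) none).mono ?_
  have h4 := pb_mono c₁ hx
  rw [show K + 2 = K + 1 + 1 from rfl, add_mul (K + 1)]
  simp only [List.length_nil]
  omega

theorem pair_eq (x y : List Bool) : pair x y = pr x y := by
  induction x with
  | nil => rfl
  | cons b x ih => exact congrArg (fun z => true :: b :: z) ih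

theorem esize_bools (l : List Bool) : esize l = 3 * l.length := by
  induction l with
  | nil => rfl
  | cons b l ih => rw [esize_list_cons, ih, esize_bool, List.length_cons]; ring

/-- A state together with a coin. -/
structure Ext (α : Type) where
  b : Bool
  s : α × List Bool

instance {α : Type} [Enc α] : Enc (Ext α) := ⟨fun i => i.b :: enc i.s⟩

/-- **Main theorem.** If the number of coins `t` (in binary) and the function `f` of the input
and the coins are computable in polynomial time, then there is a probabilistic Turing machine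
which halts after polynomially many (in the length of the input and the number of coins) steps,
and whose output is distributed as the code of `f (x, ρ)` for uniform `ρ` of length `t x`. -/
theorem exists_machine {α β : Type} [Enc α] [Enc β] {t : α → ℕ} (ht : PT ∅ t)
    {f : α × List Bool → β} (hf : PT ∅ f) : ∃ (M : Machine) (c : ℕ), ∀ (x : α) (T : ℕ),
      (esize x + t x + 2) ^ c ≤ T →
      (∀ ρ : Fin T → Bool, (M.run (enc x) (List.ofFn ρ)).l = none) ∧
      ∀ p : List Bool → Prop, frq T (fun ρ => p ((M.run (enc x) ρ).stk 0)) =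
        frq (t x) fun ρ => p (enc (f (x, ρ))) := by
  have hlt : PT ∅ fun s : α × List Bool => decide (s.2.length < t s.1) :=
    PT.lt (PT.length PT.snd') (ht.comp PT.fst')
  obtain ⟨Q, hQ, hQ'⟩ : PT ∅ fun s : α × List Bool =>
      if s.2.length < t s.1 then Raw.mk [true] else Raw.mk [] :=
    PT.ite hlt (PT.const _) (PT.const _)
  obtain ⟨U, hU, hU'⟩ : PT ∅ fun i : Ext α => ((i.s.1, i.s.2 ++ [i.b]) : α × List Bool) := by
    have hs : PT ∅ (Ext.s : Ext α → α × List Bool) := ⟨_, FP.tail, fun _ => rfl⟩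
    have hb : PT ∅ (Ext.b : Ext α → Bool) :=
      PT.rawHd (f := fun i : Ext α => Raw.mk (enc i)) ⟨_, FP.id, fun _ => rfl⟩
    exact hs.fst.pair (PT.append hs.snd (PT.cons hb PT.nil))
  obtain ⟨I, hI, hI'⟩ : PT ∅ fun x : α => ((x, []) : α × List Bool) := PT.id.pair (PT.const _)
  obtain ⟨O, hO, hO'⟩ := hf
  obtain ⟨M, c, H⟩ := exists_machine_val hI hQ hU hO
  have hval : ∀ (x : α) (p : Word → Prop) (j : ℕ) (ρ : List Bool), ρ.length + j = t x →
      Val Q U O p (2 * esize x + 3 * t x + 1) j (enc ((x, ρ) : α × List Bool))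
        (frq j fun u => p (enc (f (x, ρ ++ u)))) := by
    intro x p j
    have hl : ∀ ρ : List Bool, ρ.length ≤ t x →
        (enc ((x, ρ) : α × List Bool)).length ≤ 2 * esize x + 3 * t x + 1 := by
      intro ρ h
      change esize _ ≤ _
      rw [esize_pair x, esize_bools]
      omega
    induction j with
    | zero =>
      intro ρ hρ
      rw [frq_zero, List.append_nil, ← hO']
      refine Val.stop ?_ (hl ρ (by omega))
      rw [hQ']
      dsimp only
      rw [if_neg (by omega)]
      rfl
    | succ j ih =>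
      intro ρ hρ
      have h4 : ∀ b, U (b :: enc ((x, ρ) : α × List Bool)) =
          enc ((x, ρ ++ [b]) : α × List Bool) := fun b => hU' ⟨b, _⟩
      have h5 := fun b => ih (ρ ++ [b]) (by rw [List.length_append, List.length_singleton]; omega)
      simp only [List.append_assoc, List.singleton_append] at h5
      rw [frq_succ]
      refine Val.step ?_ (hl ρ (by omega)) ((h4 false).symm ▸ h5 false) ((h4 true).symm ▸ h5 true)
      rw [hQ']
      dsimp only
      rw [if_pos (by omega)]
      exact List.cons_ne_nil _ _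
  refine ⟨M, 3 * c + 1, fun x T hT => ?_⟩
  have hT' : (t x + 2) * pb c (2 * esize x + 3 * t x + 1) ≤ T := by
    refine le_trans ?_ hT
    rw [pow_succ', pow_mul, pb]
    refine Nat.mul_le_mul (by omega) (Nat.pow_le_pow_left ?_ c)
    generalize esize x = a
    generalize t x = b
    have h1 : 2 * 2 * (a + b + 2) ≤ (a + b + 2) * (a + b + 2) * (a + b + 2) :=
      Nat.mul_le_mul (Nat.mul_le_mul (by omega) (by omega)) le_rfl
    calc 2 * a + 3 * b + 1 + 2 ≤ 2 * 2 * (a + b + 2) := by omega
      _ ≤ _ := h1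
      _ = (a + b + 2) ^ 3 := by ring
  have key : ∀ (p : Word → Prop) (P : M.Cfg → Prop),
      (∀ d : M.Cfg, d.l = none → (P d ↔ p (d.stk 0))) →
      frq T (fun ρ => P (M.run (enc x) ρ)) = frq (t x) fun ρ => p (enc (f (x, ρ))) := by
    intro p P hP
    have h6 := hval x p (t x) [] (zero_add _)
    rw [← hI'] at h6
    exact H p P hP (enc x) _ _ _ (by change esize x ≤ _; omega) h6 T hT'
  refine ⟨fun ρ => ?_, fun p => key p (fun d => p (d.stk 0)) fun _ _ => Iff.rfl⟩
  have h7 := key (fun _ => True) (fun d => d.l = none) fun d hd => iff_true_intro hd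
  rw [frq_const, ind, if_pos trivial] at h7
  exact all_of_frq h7 ρ

end Vale.Agent.Lib.PTM
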